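import Vale.Agent.P046.H561.Perm

/-!
Exchangeability and second moments of the set of surviving edges.
-/

set_option autoImplicit false

open scoped Classical
open Finset

namespace Vale.Agent.P046.H561

variable {n : ℕ}

/-! ### expectations -/

lemma sum_toReal : ∑ G : SimpleGraph (Fin n), (finalGraph n G).toReal = 1 := by
  rw [← ENNReal.toReal_sum (fun G _ => PMF.apply_ne_top _ _)]
  have h := (finalGraph n).tsum_coe
  rw [tsum_fintype] at h
  rw [h, ENNReal.toReal_one]

lemma ex_add (f g : SimpleGraph (Fin n) → ℝ) : ex (fun G => f G + g G) = ex f + ex g := by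
  unfold ex
  rw [← Finset.sum_add_distrib]
  exact Finset.sum_congr rfl fun G _ => mul_add _ _ _

lemma ex_mul_left (c : ℝ) (f : SimpleGraph (Fin n) → ℝ) : ex (fun G => c * f G) = c * ex f := by
  unfold ex
  rw [Finset.mul_sum]
  exact Finset.sum_congr rfl fun G _ => mul_left_comm _ _ _

lemma ex_const (c : ℝ) : ex (fun _ : SimpleGraph (Fin n) => c) = c := by
  unfold ex
  rw [← Finset.sum_mul, sum_toReal, one_mul]

lemma ex_sum {ι : Type} (s : Finset ι) (f : ι → SimpleGraph (Fin n) → ℝ) :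
    ex (fun G => ∑ i ∈ s, f i G) = ∑ i ∈ s, ex (f i) := by
  unfold ex
  rw [Finset.sum_comm]
  exact Finset.sum_congr rfl fun G _ => Finset.mul_sum _ _ _

lemma ex_mono {f g : SimpleGraph (Fin n) → ℝ} (h : ∀ G, f G ≤ g G) : ex f ≤ ex g :=
  Finset.sum_le_sum fun G _ => mul_le_mul_of_nonneg_left (h G) ENNReal.toReal_nonneg

lemma ex_nonneg {f : SimpleGraph (Fin n) → ℝ} (h : ∀ G, 0 ≤ f G) : 0 ≤ ex f :=
  Finset.sum_nonneg fun G _ => mul_nonneg ENNReal.toReal_nonneg (h G)

lemma prob_eq (A : Set (SimpleGraph (Fin n))) :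
    ((finalGraph n).toOuterMeasure A).toReal = ex fun G => if G ∈ A then 1 else 0 := by
  rw [PMF.toOuterMeasure_apply_fintype, ENNReal.toReal_sum (fun G _ => by
    unfold Set.indicator
    split_ifs
    · exact PMF.apply_ne_top _ _
    · exact ENNReal.zero_ne_top)]
  refine Finset.sum_congr rfl fun G _ => ?_
  unfold Set.indicator
  beta_reduce
  split_ifs
  · rw [mul_one]
  · rw [mul_zero, ENNReal.toReal_zero]

/-! ### indicators of edges -/

/-- the edges of `K_n` -/
noncomputable def K (n : ℕ) : Finset (Sym2 (Fin n)) := Finset.univ.filter fun e => ¬ e.IsDiag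

lemma mem_K {e : Sym2 (Fin n)} : e ∈ K n ↔ ¬ e.IsDiag := by
  unfold K
  rw [Finset.mem_filter]
  exact and_iff_right (Finset.mem_univ e)

lemma card_K : (K n).card = n.choose 2 := by
  have h := Sym2.card_subtype_not_diag (α := Fin n)
  rw [Fintype.card_fin, Fintype.card_subtype] at h
  rw [← h]
  unfold K
  congr

/-- the indicator of the event that `e` survives -/
noncomputable def I (e : Sym2 (Fin n)) (G : SimpleGraph (Fin n)) : ℝ :=
  if e ∈ G.edgeSet then 1 else 0

lemma I_nonneg (e : Sym2 (Fin n)) (G : SimpleGraph (Fin n)) : 0 ≤ I e G := by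
  unfold I
  split_ifs <;> norm_num

lemma I_le_one (e : Sym2 (Fin n)) (G : SimpleGraph (Fin n)) : I e G ≤ 1 := by
  unfold I
  split_ifs <;> norm_num

lemma card_survivors (S : Finset (Sym2 (Fin n))) (G : SimpleGraph (Fin n)) :
    ((S.filter fun e => e ∈ G.edgeSet).card : ℝ) = ∑ e ∈ S, I e G := by
  rw [Finset.card_filter, Nat.cast_sum]
  refine Finset.sum_congr rfl fun e _ => ?_
  unfold I
  split_ifs
  · exact Nat.cast_one
  · exact Nat.cast_zero

lemma numEdges_eq (G : SimpleGraph (Fin n)) : (numEdges G : ℝ) = ∑ e ∈ K n, I e G := by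
  rw [← card_survivors]
  unfold numEdges
  congr 2
  ext e
  rw [SimpleGraph.mem_edgeFinset, Finset.mem_filter, mem_K]
  exact ⟨fun h => ⟨G.not_isDiag_of_mem_edgeSet h, h⟩, fun h => h.2⟩

/-! ### exchangeability -/

lemma mem_map_rl (σ : Equiv.Perm (Fin n)) (e : Sym2 (Fin n)) (G : SimpleGraph (Fin n)) :
    e.map σ ∈ (rl σ G).edgeSet ↔ e ∈ G.edgeSet := by
  induction e with
  | _ u v =>
    rw [Sym2.map_mk, SimpleGraph.mem_edgeSet, SimpleGraph.mem_edgeSet, rl_adj, Equiv.symm_apply_apply, Equiv.symm_apply_apply]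

lemma I_map (σ : Equiv.Perm (Fin n)) (e : Sym2 (Fin n)) (G : SimpleGraph (Fin n)) :
    I (e.map σ) (rl σ G) = I e G := by
  unfold I
  simp only [mem_map_rl]

lemma ex_I_map (σ : Equiv.Perm (Fin n)) (e : Sym2 (Fin n)) : ex (I (e.map σ)) = ex (I e) := by
  rw [← ex_rl σ]
  exact congrArg ex (funext fun G => I_map σ e G)

lemma ex_II_map (σ : Equiv.Perm (Fin n)) (e f : Sym2 (Fin n)) :
    ex (fun G => I (e.map σ) G * I (f.map σ) G) = ex fun G => I e G * I f G := by
  rw [← ex_rl σ]
  exact congrArg ex (funext fun G => by rw [I_map, I_map])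

lemma exists_perm {k : ℕ} (x y : Fin k ↪ Fin n) : ∃ σ : Equiv.Perm (Fin n), ∀ i, σ (x i) = y i := by
  have h := Equiv.Perm.isMultiplyPretransitive (Fin n) k
  rw [MulAction.isMultiplyPretransitive_iff] at h
  obtain ⟨σ, hσ⟩ := h x y
  refine ⟨σ, fun i => ?_⟩
  have := congrArg (fun z : Fin k ↪ Fin n => z i) hσ
  exact this

lemma ex_I_eq {e f : Sym2 (Fin n)} (he : e ∈ K n) (hf : f ∈ K n) : ex (I e) = ex (I f) := by
  rw [mem_K] at he hf
  induction e with
  | _ a b =>
    induction f with
    | _ c d =>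
      rw [Sym2.mk_isDiag_iff] at he hf
      obtain ⟨σ, hσ⟩ := exists_perm (⟨![a, b], by
        intro i j hij
        fin_cases i <;> fin_cases j <;> simp_all [eq_comm]⟩ : Fin 2 ↪ Fin n) ⟨![c, d], by
        intro i j hij
        fin_cases i <;> fin_cases j <;> simp_all [eq_comm]⟩
      have h0 : σ a = c := hσ 0
      have h1 : σ b = d := hσ 1
      have h2 := ex_I_map σ s(a, b)
      rw [Sym2.map_mk, h0, h1] at h2
      exact h2.symm

/-- no common vertex -/
def Disj (e f : Sym2 (Fin n)) : Prop := ∀ v, v ∈ e → v ∉ f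

lemma disj_mk {a b c d : Fin n} : Disj s(a, b) s(c, d) ↔ a ≠ c ∧ a ≠ d ∧ b ≠ c ∧ b ≠ d := by
  unfold Disj
  simp only [Sym2.mem_iff]
  constructor
  · intro h
    exact ⟨fun h' => h a (Or.inl rfl) (Or.inl h'), fun h' => h a (Or.inl rfl) (Or.inr h'),
      fun h' => h b (Or.inr rfl) (Or.inl h'), fun h' => h b (Or.inr rfl) (Or.inr h')⟩
  · rintro ⟨h1, h2, h3, h4⟩ v (rfl | rfl) (h | h)
    · exact h1 h
    · exact h2 h
    · exact h3 h
    · exact h4 h

lemma ex_II_eq {e f e' f' : Sym2 (Fin n)} (he : e ∈ K n) (hf : f ∈ K n) (hd : Disj e f)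
    (he' : e' ∈ K n) (hf' : f' ∈ K n) (hd' : Disj e' f') :
    ex (fun G => I e G * I f G) = ex fun G => I e' G * I f' G := by
  rw [mem_K] at he hf he' hf'
  induction e with
  | _ a b =>
    induction f with
    | _ c d =>
      induction e' with
      | _ a' b' =>
        induction f' with
        | _ c' d' =>
          rw [Sym2.mk_isDiag_iff] at he hf he' hf'
          rw [disj_mk] at hd hd'
          obtain ⟨σ, hσ⟩ := exists_perm (⟨![a, b, c, d], by
            intro i j hij
            fin_cases i <;> fin_cases j <;> simp_all [eq_comm]⟩ : Fin 4 ↪ Fin n)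
            ⟨![a', b', c', d'], by
            intro i j hij
            fin_cases i <;> fin_cases j <;> simp_all [eq_comm]⟩
          have h0 : σ a = a' := hσ 0
          have h1 : σ b = b' := hσ 1
          have h2 : σ c = c' := hσ 2
          have h3 : σ d = d' := hσ 3
          have h4 := ex_II_map σ s(a, b) s(c, d)
          rw [Sym2.map_mk, Sym2.map_mk, h0, h1, h2, h3] at h4
          exact h4.symm

lemma card_incident (a : Fin n) (S : Finset (Sym2 (Fin n))) :
    (S.filter fun f => a ∈ f).card ≤ n := by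
  have h : (S.filter fun f => a ∈ f) ⊆ Finset.univ.image fun v : Fin n => s(a, v) := by
    intro f hf
    obtain ⟨v, rfl⟩ := (Finset.mem_filter.1 hf).2
    exact Finset.mem_image.2 ⟨v, Finset.mem_univ _, rfl⟩
  calc _ ≤ _ := Finset.card_le_card h
    _ ≤ _ := Finset.card_image_le
    _ = n := by rw [Finset.card_univ, Fintype.card_fin]

lemma card_not_disj' (e : Sym2 (Fin n)) (S : Finset (Sym2 (Fin n))) (D : ℕ)
    (hD : ∀ v, (S.filter fun f => v ∈ f).card ≤ D) :
    (S.filter fun f => ¬ Disj e f).card ≤ 2 * D := by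
  induction e with
  | _ a b =>
    have h : (S.filter fun f => ¬ Disj s(a, b) f) ⊆
        (S.filter fun f => a ∈ f) ∪ (S.filter fun f => b ∈ f) := by
      intro f hf
      obtain ⟨hS, h⟩ := Finset.mem_filter.1 hf
      unfold Disj at h
      push Not at h
      obtain ⟨v, hv, hvf⟩ := h
      rw [Sym2.mem_iff] at hv
      rw [Finset.mem_union, Finset.mem_filter, Finset.mem_filter]
      rcases hv with rfl | rfl
      · exact Or.inl ⟨hS, hvf⟩
      · exact Or.inr ⟨hS, hvf⟩
    have h1 := hD a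
    have h2 := hD b
    have h3 := (Finset.card_le_card h).trans (Finset.card_union_le _ _)
    omega

lemma card_not_disj (e : Sym2 (Fin n)) (S : Finset (Sym2 (Fin n))) :
    (S.filter fun f => ¬ Disj e f).card ≤ 2 * n :=
  card_not_disj' e S n fun v => card_incident v S

/-! ### first and second moments -/

lemma ex_survivors (S : Finset (Sym2 (Fin n))) (hS : ∀ e ∈ S, e ∈ K n) {e : Sym2 (Fin n)}
    (he : e ∈ K n) : ex (fun G => ∑ f ∈ S, I f G) = S.card * ex (I e) := by
  rw [ex_sum, Finset.sum_congr rfl fun f hf => ex_I_eq (hS f hf) he, Finset.sum_const,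
    nsmul_eq_mul]

lemma ex_II_le (e f : Sym2 (Fin n)) : ex (fun G => I e G * I f G) ≤ ex (I e) :=
  ex_mono fun G => mul_le_of_le_one_right (I_nonneg e G) (I_le_one f G)

lemma ex_sq_le' (S : Finset (Sym2 (Fin n))) (hS : ∀ e ∈ S, e ∈ K n) (D : ℕ)
    (hD : ∀ g ∈ S, (S.filter fun f => ¬ Disj g f).card ≤ D) {e f : Sym2 (Fin n)}
    (he : e ∈ K n) (hf : f ∈ K n) (hd : Disj e f) :
    ex (fun G => (∑ g ∈ S, I g G) ^ 2) ≤
      S.card * D * ex (I e) + S.card ^ 2 * ex fun G => I e G * I f G := by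
  have hq : 0 ≤ ex (I e) := ex_nonneg fun G => I_nonneg e G
  have hq2 : 0 ≤ ex fun G => I e G * I f G :=
    ex_nonneg fun G => mul_nonneg (I_nonneg e G) (I_nonneg f G)
  have h1 : ex (fun G => (∑ g ∈ S, I g G) ^ 2) =
      ∑ g ∈ S, ∑ h ∈ S, ex fun G => I g G * I h G := by
    have : (fun G : SimpleGraph (Fin n) => (∑ g ∈ S, I g G) ^ 2) =
        fun G => ∑ g ∈ S, ∑ h ∈ S, I g G * I h G := by
      funext G
      rw [sq, Finset.sum_mul_sum]
    rw [this, ex_sum]
    exact Finset.sum_congr rfl fun g _ => ex_sum _ _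
  rw [h1]
  have h2 : ∀ g ∈ S, ∑ h ∈ S, ex (fun G => I g G * I h G) ≤
      D * ex (I e) + S.card * ex fun G => I e G * I f G := by
    intro g hg
    rw [← Finset.sum_filter_add_sum_filter_not S (fun h => ¬ Disj g h)]
    refine add_le_add ?_ ?_
    · calc ∑ h ∈ S.filter fun h => ¬ Disj g h, ex (fun G => I g G * I h G)
          ≤ ∑ h ∈ S.filter fun h => ¬ Disj g h, ex (I e) :=
            Finset.sum_le_sum fun h _ => (ex_II_le g h).trans (ex_I_eq (hS g hg) he).le
        _ = (S.filter fun h => ¬ Disj g h).card * ex (I e) := by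
            rw [Finset.sum_const, nsmul_eq_mul]
        _ ≤ D * ex (I e) := by
            refine mul_le_mul_of_nonneg_right ?_ hq
            exact_mod_cast hD g hg
    · calc ∑ h ∈ S.filter fun h => ¬ ¬ Disj g h, ex (fun G => I g G * I h G)
          = ∑ h ∈ S.filter fun h => ¬ ¬ Disj g h, ex (fun G => I e G * I f G) := by
            refine Finset.sum_congr rfl fun h hh => ?_
            obtain ⟨hh1, hh2⟩ := Finset.mem_filter.1 hh
            exact ex_II_eq (hS g hg) (hS h hh1) (not_not.1 hh2) he hf hd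
        _ = (S.filter fun h => ¬ ¬ Disj g h).card * ex (fun G => I e G * I f G) := by
            rw [Finset.sum_const, nsmul_eq_mul]
        _ ≤ S.card * ex fun G => I e G * I f G := by
            refine mul_le_mul_of_nonneg_right ?_ hq2
            exact_mod_cast Finset.card_filter_le _ _
  calc _ ≤ ∑ g ∈ S, (D * ex (I e) + S.card * ex fun G => I e G * I f G) :=
        Finset.sum_le_sum h2
    _ = _ := by
        rw [Finset.sum_const, nsmul_eq_mul]
        ring

lemma ex_sq_le (S : Finset (Sym2 (Fin n))) (hS : ∀ e ∈ S, e ∈ K n) {e f : Sym2 (Fin n)}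
    (he : e ∈ K n) (hf : f ∈ K n) (hd : Disj e f) :
    ex (fun G => (∑ g ∈ S, I g G) ^ 2) ≤
      S.card * (2 * n) * ex (I e) + S.card ^ 2 * ex fun G => I e G * I f G := by
  have h := ex_sq_le' S hS (2 * n) (fun g _ => card_not_disj g S) he hf hd
  push_cast at h
  exact h

lemma le_ex_sq {e f : Sym2 (Fin n)} (he : e ∈ K n) (hf : f ∈ K n) (hd : Disj e f) :
    ((K n).card * ((K n).card - 2 * n) : ℝ) * ex (fun G => I e G * I f G) ≤
      ex fun G => (∑ g ∈ K n, I g G) ^ 2 := by
  have hq2 : 0 ≤ ex fun G => I e G * I f G :=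
    ex_nonneg fun G => mul_nonneg (I_nonneg e G) (I_nonneg f G)
  have h1 : ex (fun G => (∑ g ∈ K n, I g G) ^ 2) =
      ∑ g ∈ K n, ∑ h ∈ K n, ex fun G => I g G * I h G := by
    have : (fun G : SimpleGraph (Fin n) => (∑ g ∈ K n, I g G) ^ 2) =
        fun G => ∑ g ∈ K n, ∑ h ∈ K n, I g G * I h G := by
      funext G
      rw [sq, Finset.sum_mul_sum]
    rw [this, ex_sum]
    exact Finset.sum_congr rfl fun g _ => ex_sum _ _
  rw [h1]
  have h2 : ∀ g ∈ K n, ((K n).card - 2 * n : ℝ) * ex (fun G => I e G * I f G) ≤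
      ∑ h ∈ K n, ex (fun G => I g G * I h G) := by
    intro g hg
    rw [← Finset.sum_filter_add_sum_filter_not (K n) (fun h => Disj g h)]
    have h3 : 0 ≤ ∑ h ∈ (K n).filter fun h => ¬ Disj g h, ex (fun G => I g G * I h G) :=
      Finset.sum_nonneg fun h _ => ex_nonneg fun G => mul_nonneg (I_nonneg g G) (I_nonneg h G)
    have h4 : ∑ h ∈ (K n).filter fun h => Disj g h, ex (fun G => I g G * I h G) =
        ((K n).filter fun h => Disj g h).card * ex (fun G => I e G * I f G) := by
      rw [Finset.sum_congr rfl fun h hh => ex_II_eq hg (Finset.mem_filter.1 hh).1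
        (Finset.mem_filter.1 hh).2 he hf hd, Finset.sum_const, nsmul_eq_mul]
    have h5 : ((K n).card : ℝ) - 2 * n ≤ ((K n).filter fun h => Disj g h).card := by
      have h6 := Finset.card_filter_add_card_filter_not (s := K n) (fun h => Disj g h)
      have h7 := card_not_disj g (K n)
      have h8 : (K n).card ≤ ((K n).filter fun h => Disj g h).card + 2 * n := by omega
      have h9 : ((K n).card : ℝ) ≤ ((K n).filter fun h => Disj g h).card + 2 * n := by
        exact_mod_cast h8
      linarith only [h9]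
    have h6 := mul_le_mul_of_nonneg_right h5 hq2
    linarith only [h3, h4, h6]
  calc _ = ∑ g ∈ K n, ((K n).card - 2 * n : ℝ) * ex (fun G => I e G * I f G) := by
        rw [Finset.sum_const, nsmul_eq_mul]
        ring
    _ ≤ _ := Finset.sum_le_sum h2

end Vale.Agent.P046.H561
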