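import Vale.Agent.P046.H561.Count
import Vale.Agent.P046.H796.L2

/-!
The asymptotics of the survival probabilities and the equidistribution of the surviving edges.
-/

set_option autoImplicit false

open scoped Classical
open Finset Filter

namespace Vale.Agent.P046.H561

/-- first and second moment of the number of edges -/
noncomputable def M1 (n : ℕ) : ℝ := ex fun G : SimpleGraph (Fin n) => (numEdges G : ℝ)

noncomputable def M2 (n : ℕ) : ℝ := ex fun G : SimpleGraph (Fin n) => (numEdges G : ℝ) ^ 2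

lemma M1_lim : Tendsto (fun n : ℕ => M1 n / (n : ℝ) ^ (3 / 2 : ℝ)) atTop (nhds (1 / (2 * √2))) :=
  Lv.mean_limit Lv.core

lemma M2_lim : Tendsto (fun n : ℕ => M2 n / (n : ℝ) ^ 3) atTop (nhds (1 / 8)) := Lv.square_limit

/-- the survival probability of an edge -/
noncomputable def q (n : ℕ) : ℝ := M1 n / ((n : ℝ) * (n - 1) / 2)

noncomputable def al (n : ℕ) : ℝ := √(2 * n) * q n

noncomputable def up (n : ℕ) : ℝ :=
  2 * n * M2 n / (((n : ℝ) * (n - 1) / 2) * ((n : ℝ) * (n - 5) / 2))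

noncomputable def lo (n : ℕ) : ℝ :=
  2 * n * (M2 n - ((n : ℝ) * (n - 1) / 2) * (2 * n) * q n) / ((n : ℝ) * (n - 1) / 2) ^ 2

lemma rpow32 (n : ℕ) (hn : 0 < n) : (n : ℝ) ^ (3 / 2 : ℝ) = n * √n := by
  have h : (0 : ℝ) < n := by exact_mod_cast hn
  rw [Real.sqrt_eq_rpow, show (3 / 2 : ℝ) = 1 + 1 / 2 by norm_num, Real.rpow_add h,
    Real.rpow_one]

lemma ratio (x : ℝ) : Tendsto (fun n : ℕ => (n : ℝ) / (n - x)) atTop (nhds 1) := by
  have h := tendsto_natCast_div_add_atTop (𝕜 := ℝ) (-x)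
  refine h.congr fun n => ?_
  rw [← sub_eq_add_neg]

lemma al_lim : Tendsto al atTop (nhds 1) := by
  have h := ((M1_lim.const_mul (2 * √2)).mul (ratio 1))
  have h2 : (0 : ℝ) < 2 * √2 := by positivity
  rw [mul_one_div_cancel h2.ne', one_mul] at h
  refine h.congr' ?_
  filter_upwards [eventually_ge_atTop 2] with n hn
  have h0 : (0 : ℝ) < n := by exact_mod_cast (by omega : 0 < n)
  have h1 : (0 : ℝ) < n - 1 := by
    have : (2 : ℝ) ≤ n := by exact_mod_cast hn
    linarith only [this]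
  have hs : 0 < √(n : ℝ) := Real.sqrt_pos.2 h0
  unfold al q
  rw [rpow32 n (by omega), Real.sqrt_mul (by norm_num) (n : ℝ)]
  have h3 : (n : ℝ) = √(n : ℝ) * √(n : ℝ) := (Real.mul_self_sqrt h0.le).symm
  obtain ⟨r, hr⟩ : ∃ r : ℝ, r = √(n : ℝ) := ⟨_, rfl⟩
  rw [← hr] at h3 hs ⊢
  obtain ⟨x, hx⟩ : ∃ x : ℝ, x = (n : ℝ) := ⟨_, rfl⟩
  rw [← hx] at h3 h0 h1 ⊢
  field_simp
  rw [h3]
  ring

lemma sqrt_inv_lim : Tendsto (fun n : ℕ => 1 / √(2 * (n : ℝ))) atTop (nhds 0) := by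
  have h : Tendsto (fun n : ℕ => √(2 * (n : ℝ))) atTop atTop :=
    Real.tendsto_sqrt_atTop.comp
      (tendsto_natCast_atTop_atTop.const_mul_atTop (by norm_num : (0 : ℝ) < 2))
  refine h.inv_tendsto_atTop.congr fun n => ?_
  rw [Pi.inv_apply, one_div]

lemma q_lim : Tendsto q atTop (nhds 0) := by
  have h := al_lim.mul sqrt_inv_lim
  rw [mul_zero] at h
  refine h.congr' ?_
  filter_upwards [eventually_gt_atTop 0] with n hn
  have h0 : (0 : ℝ) < 2 * n := by
    have : (0 : ℝ) < n := by exact_mod_cast hn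
    linarith only [this]
  have hs := Real.sqrt_pos.2 h0
  unfold al
  field_simp

lemma up_lim : Tendsto up atTop (nhds 1) := by
  have h := ((M2_lim.const_mul 8).mul (ratio 1)).mul (ratio 5)
  norm_num at h
  refine h.congr' ?_
  filter_upwards [eventually_ge_atTop 6] with n hn
  have h5 : (6 : ℝ) ≤ n := by exact_mod_cast hn
  have h0 : (0 : ℝ) < n := by linarith only [h5]
  have h1 : (0 : ℝ) < n - 1 := by linarith only [h5]
  have h2 : (0 : ℝ) < n - 5 := by linarith only [h5]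
  unfold up
  field_simp
  ring

lemma lo_lim : Tendsto lo atTop (nhds 1) := by
  have h := (((M2_lim.const_mul 8).mul (ratio 1)).mul (ratio 1)).sub
    ((q_lim.const_mul 8).mul (ratio 1))
  norm_num at h
  refine h.congr' ?_
  filter_upwards [eventually_ge_atTop 6] with n hn
  have h5 : (6 : ℝ) ≤ n := by exact_mod_cast hn
  have h0 : (0 : ℝ) < n := by linarith only [h5]
  have h1 : (0 : ℝ) < n - 1 := by linarith only [h5]
  unfold lo
  field_simp
  ring

variable {n : ℕ}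

lemma card_K_real : ((K n).card : ℝ) = (n : ℝ) * (n - 1) / 2 := by
  rw [card_K, Nat.cast_choose_two]

lemma ex_I (hn : 6 ≤ n) {e : Sym2 (Fin n)} (he : e ∈ K n) : ex (I e) = q n := by
  have h := ex_survivors (K n) (fun _ h => h) he
  have h5 : (6 : ℝ) ≤ n := by exact_mod_cast hn
  have h1 : (0 : ℝ) < (n : ℝ) * (n - 1) / 2 := by
    have : (0 : ℝ) < n - 1 := by linarith only [h5]
    have h0 : (0 : ℝ) < n := by linarith only [h5]
    positivity
  have h2 : (fun G : SimpleGraph (Fin n) => ∑ f ∈ K n, I f G) = fun G => (numEdges G : ℝ) :=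
    funext fun G => (numEdges_eq G).symm
  rw [h2, card_K_real] at h
  unfold q M1
  rw [h, mul_div_cancel_left₀ _ h1.ne']

lemma M2_eq : M2 n = ex fun G : SimpleGraph (Fin n) => (∑ e ∈ K n, I e G) ^ 2 := by
  unfold M2
  exact congrArg ex (funext fun G => by rw [numEdges_eq])

lemma II_le (hn : 6 ≤ n) {e f : Sym2 (Fin n)} (he : e ∈ K n) (hf : f ∈ K n) (hd : Disj e f) :
    2 * n * ex (fun G => I e G * I f G) ≤ up n := by
  have h := le_ex_sq he hf hd
  rw [← M2_eq, card_K_real] at h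
  have h5 : (6 : ℝ) ≤ n := by exact_mod_cast hn
  have h0 : (0 : ℝ) < n := by linarith only [h5]
  have h1 : (0 : ℝ) < n - 1 := by linarith only [h5]
  have h2 : (0 : ℝ) < n - 5 := by linarith only [h5]
  have h3 : (n : ℝ) * (n - 1) / 2 - 2 * n = (n : ℝ) * (n - 5) / 2 := by ring
  rw [h3] at h
  unfold up
  rw [le_div_iff₀ (by positivity)]
  have h4 := mul_le_mul_of_nonneg_left h (by positivity : (0 : ℝ) ≤ 2 * n)
  linarith only [h4]

lemma le_II (hn : 6 ≤ n) {e f : Sym2 (Fin n)} (he : e ∈ K n) (hf : f ∈ K n) (hd : Disj e f) :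
    lo n ≤ 2 * n * ex (fun G => I e G * I f G) := by
  have h := ex_sq_le (K n) (fun _ h => h) he hf hd
  rw [← M2_eq, card_K_real, ex_I hn he] at h
  have h5 : (6 : ℝ) ≤ n := by exact_mod_cast hn
  have h0 : (0 : ℝ) < n := by linarith only [h5]
  have h1 : (0 : ℝ) < n - 1 := by linarith only [h5]
  unfold lo
  rw [div_le_iff₀ (by positivity)]
  have h4 := mul_le_mul_of_nonneg_left h (by positivity : (0 : ℝ) ≤ 2 * n)
  linarith only [h4]

lemma dev_le (hn : 6 ≤ n) (S : Finset (Sym2 (Fin n))) (hS : ∀ e ∈ S, e ∈ K n)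
    {e f : Sym2 (Fin n)} (he : e ∈ K n) (hf : f ∈ K n) (hd : Disj e f) :
    ex (fun G => (∑ g ∈ S, I g G - S.card / √(2 * n)) ^ 2) ≤
      (n : ℝ) ^ 3 * (q n + |2 * n * ex (fun G => I e G * I f G) - 2 * al n + 1| / 8) := by
  have h5 : (6 : ℝ) ≤ n := by exact_mod_cast hn
  have h0 : (0 : ℝ) < n := by linarith only [h5]
  have hq : 0 ≤ q n := by
    rw [← ex_I hn he]
    exact ex_nonneg fun G => I_nonneg e G
  have h1 := ex_sq_le S hS he hf hd
  have h2 := ex_survivors S hS he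
  rw [ex_I hn he] at h1 h2
  obtain ⟨r, hr⟩ : ∃ r : ℝ, r = √(2 * (n : ℝ)) := ⟨_, rfl⟩
  have hr0 : 0 < r := by rw [hr]; exact Real.sqrt_pos.2 (by positivity)
  have hr2 : r * r = 2 * n := by rw [hr]; exact Real.mul_self_sqrt (by positivity)
  obtain ⟨s, hs⟩ : ∃ s : ℝ, s = (S.card : ℝ) := ⟨_, rfl⟩
  have hs0 : 0 ≤ s := by rw [hs]; exact Nat.cast_nonneg _
  have hs1 : s ≤ (n : ℝ) ^ 2 / 2 := by
    have h3 : S.card ≤ (K n).card := Finset.card_le_card hS
    have h4 : (S.card : ℝ) ≤ (K n).card := by exact_mod_cast h3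
    rw [card_K_real] at h4
    rw [hs]
    nlinarith only [h4, h0]
  obtain ⟨b, hb⟩ : ∃ b : ℝ, b = ex fun G => I e G * I f G := ⟨_, rfl⟩
  have h6 : ex (fun G => (∑ g ∈ S, I g G - S.card / √(2 * n)) ^ 2) =
      ex (fun G => (∑ g ∈ S, I g G) ^ 2) + (-(2 * (s / r))) * (s * q n) + (s / r) ^ 2 := by
    have : (fun G : SimpleGraph (Fin n) => (∑ g ∈ S, I g G - S.card / √(2 * n)) ^ 2) =
        fun G => ((∑ g ∈ S, I g G) ^ 2 + (-(2 * (s / r))) * (∑ g ∈ S, I g G)) + (s / r) ^ 2 := by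
      funext G
      rw [hs, hr]
      ring
    rw [this, ex_add (fun G => (∑ g ∈ S, I g G) ^ 2 + (-(2 * (s / r))) * (∑ g ∈ S, I g G))
      (fun _ => (s / r) ^ 2), ex_const, ex_add (fun G => (∑ g ∈ S, I g G) ^ 2)
      (fun G => (-(2 * (s / r))) * (∑ g ∈ S, I g G)), ex_mul_left, h2, hs]
  rw [h6, ← hb]
  rw [← hb, ← hs] at h1
  unfold al
  rw [← hr]
  have h7 : s ^ 2 * b + (-(2 * (s / r))) * (s * q n) + (s / r) ^ 2 =
      s ^ 2 / (r * r) * (2 * n * b - 2 * (r * q n) + 1) := by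
    rw [← hr2]
    field_simp
    ring
  have h8 : s ^ 2 / (r * r) * (2 * n * b - 2 * (r * q n) + 1) ≤
      s ^ 2 / (r * r) * |2 * n * b - 2 * (r * q n) + 1| :=
    mul_le_mul_of_nonneg_left (le_abs_self _) (by positivity)
  have h9 : s ^ 2 / (r * r) ≤ (n : ℝ) ^ 3 / 8 := by
    rw [hr2, div_le_iff₀ (by positivity)]
    have := pow_le_pow_left₀ hs0 hs1 2
    calc s ^ 2 ≤ _ := this
      _ = _ := by ring
  have h10 := mul_le_mul_of_nonneg_right h9 (abs_nonneg (2 * n * b - 2 * (r * q n) + 1))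
  have h11 : s * (2 * n) * q n ≤ (n : ℝ) ^ 3 * q n := by
    refine mul_le_mul_of_nonneg_right ?_ hq
    have := mul_le_mul_of_nonneg_right hs1 (by positivity : (0 : ℝ) ≤ 2 * n)
    calc s * (2 * n) ≤ _ := this
      _ = _ := by ring
  linarith only [h1, h7, h8, h10, h11]

lemma I_mk (u v : Fin n) (G : SimpleGraph (Fin n)) :
    I s(u, v) G = if G.Adj u v then 1 else 0 := by
  by_cases h : G.Adj u v
  · rw [if_pos h]
    exact if_pos h
  · rw [if_neg h]
    exact if_neg h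

lemma rel_le (hn : 6 ≤ n) (S : Finset (Sym2 (Fin n))) (hS : ∀ e ∈ S, e ∈ K n) (hS0 : S.Nonempty)
    (D : ℕ) (hD : ∀ v, (S.filter fun f => v ∈ f).card ≤ D)
    {e f : Sym2 (Fin n)} (he : e ∈ K n) (hf : f ∈ K n) (hd : Disj e f) :
    ex (fun G => ((∑ g ∈ S, I g G) / (S.card / √(2 * n)) - 1) ^ 2) ≤
      2 * D * √(2 * n) / S.card * al n +
        |2 * n * ex (fun G => I e G * I f G) - 2 * al n + 1| := by
  have h5 : (6 : ℝ) ≤ n := by exact_mod_cast hn
  have h0 : (0 : ℝ) < n := by linarith only [h5]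
  have h1 := ex_sq_le' S hS (2 * D) (fun g _ => card_not_disj' g S D hD) he hf hd
  have h2 := ex_survivors S hS he
  rw [ex_I hn he] at h1 h2
  push_cast at h1
  obtain ⟨r, hr⟩ : ∃ r : ℝ, r = √(2 * (n : ℝ)) := ⟨_, rfl⟩
  have hr0 : 0 < r := by rw [hr]; exact Real.sqrt_pos.2 (by positivity)
  have hr2 : r * r = 2 * n := by rw [hr]; exact Real.mul_self_sqrt (by positivity)
  obtain ⟨s, hs⟩ : ∃ s : ℝ, s = (S.card : ℝ) := ⟨_, rfl⟩
  have hs0 : 0 < s := by rw [hs]; exact_mod_cast hS0.card_pos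
  obtain ⟨b, hb⟩ : ∃ b : ℝ, b = ex fun G => I e G * I f G := ⟨_, rfl⟩
  have h6 : ex (fun G => ((∑ g ∈ S, I g G) / (S.card / √(2 * n)) - 1) ^ 2) =
      (r / s) ^ 2 * ex (fun G => (∑ g ∈ S, I g G) ^ 2) + (-(2 * (r / s))) * (s * q n) + 1 := by
    have : (fun G : SimpleGraph (Fin n) => ((∑ g ∈ S, I g G) / (S.card / √(2 * n)) - 1) ^ 2) =
        fun G => ((r / s) ^ 2 * (∑ g ∈ S, I g G) ^ 2 +
          (-(2 * (r / s))) * (∑ g ∈ S, I g G)) + 1 := by
      funext G
      rw [← hs, ← hr]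
      field_simp
      ring
    rw [this, ex_add (fun G => (r / s) ^ 2 * (∑ g ∈ S, I g G) ^ 2 +
      (-(2 * (r / s))) * (∑ g ∈ S, I g G)) (fun _ => 1), ex_const,
      ex_add (fun G => (r / s) ^ 2 * (∑ g ∈ S, I g G) ^ 2)
      (fun G => (-(2 * (r / s))) * (∑ g ∈ S, I g G)), ex_mul_left, ex_mul_left, h2, hs]
  rw [h6, ← hb]
  rw [← hb, ← hs] at h1
  unfold al
  rw [← hr, ← hs]
  have h7 := mul_le_mul_of_nonneg_left h1 (by positivity : 0 ≤ (r / s) ^ 2)
  have h8 : (r / s) ^ 2 * (s * (2 * D) * q n + s ^ 2 * b) + (-(2 * (r / s))) * (s * q n) + 1 =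
      2 * D * r / s * (r * q n) + (2 * n * b - 2 * (r * q n) + 1) := by
    rw [← hr2]
    field_simp
    ring
  have h9 := le_abs_self (2 * n * b - 2 * (r * q n) + 1)
  linarith only [h7, h8, h9]

/-- two disjoint edges of `K_n`, `n ≥ 6` -/
lemma exists_disj (hn : 6 ≤ n) : ∃ e f : Sym2 (Fin n), e ∈ K n ∧ f ∈ K n ∧ Disj e f := by
  refine ⟨s(⟨0, by omega⟩, ⟨1, by omega⟩), s(⟨2, by omega⟩, ⟨3, by omega⟩), ?_, ?_, ?_⟩
  · rw [mem_K, Sym2.mk_isDiag_iff]
    simp
  · rw [mem_K, Sym2.mk_isDiag_iff]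
    simp
  · rw [disj_mk]
    simp

/-! ### the results -/

theorem edge_prob (ε : ℝ) (hε : 0 < ε) : ∀ᶠ n : ℕ in atTop, ∀ u v : Fin n, u ≠ v →
    |√(2 * n) * ((finalGraph n).toOuterMeasure {G | G.Adj u v}).toReal - 1| ≤ ε := by
  have h := (Metric.tendsto_nhds.1 al_lim) ε hε
  filter_upwards [h, eventually_ge_atTop 6] with n h1 hn u v huv
  rw [Real.dist_eq] at h1
  have h2 : ((finalGraph n).toOuterMeasure {G | G.Adj u v}).toReal = q n := by
    rw [prob_eq, ← ex_I hn (e := s(u, v)) (by rwa [mem_K, Sym2.mk_isDiag_iff])]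
    rfl
  rw [h2]
  exact h1.le

theorem pair_prob (ε : ℝ) (hε : 0 < ε) : ∀ᶠ n : ℕ in atTop, ∀ u v x y : Fin n, u ≠ v → x ≠ y →
    u ≠ x → u ≠ y → v ≠ x → v ≠ y →
    |2 * n * ((finalGraph n).toOuterMeasure {G | G.Adj u v ∧ G.Adj x y}).toReal - 1| ≤ ε := by
  have h := (Metric.tendsto_nhds.1 up_lim) ε hε
  have h' := (Metric.tendsto_nhds.1 lo_lim) ε hε
  filter_upwards [h, h', eventually_ge_atTop 6] with n h1 h2 hn u v x y huv hxy hux huy hvx hvy
  rw [Real.dist_eq, abs_lt] at h1 h2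
  have he : s(u, v) ∈ K n := by rwa [mem_K, Sym2.mk_isDiag_iff]
  have hf : s(x, y) ∈ K n := by rwa [mem_K, Sym2.mk_isDiag_iff]
  have hd : Disj s(u, v) s(x, y) := disj_mk.2 ⟨hux, huy, hvx, hvy⟩
  have h3 : ((finalGraph n).toOuterMeasure {G | G.Adj u v ∧ G.Adj x y}).toReal =
      ex fun G => I s(u, v) G * I s(x, y) G := by
    rw [prob_eq]
    refine congrArg ex (funext fun G => ?_)
    rw [I_mk, I_mk, Set.mem_ofPred_eq]
    by_cases a : G.Adj u v <;> by_cases b : G.Adj x y <;> simp [a, b]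
  rw [h3]
  have h4 := II_le hn he hf hd
  have h5 := le_II hn he hf hd
  rw [abs_le]
  constructor
  · linarith only [h2.1, h5]
  · linarith only [h1.2, h4]

theorem equidistribution (ε : ℝ) (hε : 0 < ε) : ∀ᶠ n : ℕ in atTop,
    ∀ S : Finset (Sym2 (Fin n)), (∀ e ∈ S, ¬ e.IsDiag) →
      ∑ G, (finalGraph n G).toReal *
        (((S.filter fun e => e ∈ G.edgeSet).card : ℝ) - S.card / √(2 * n)) ^ 2 ≤
          ε * (n : ℝ) ^ 3 := by
  have h1 := (Metric.tendsto_nhds.1 q_lim) (ε / 2) (by positivity)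
  have h2 := (Metric.tendsto_nhds.1 up_lim) (ε / 2) (by positivity)
  have h3 := (Metric.tendsto_nhds.1 lo_lim) (ε / 2) (by positivity)
  have h4 := (Metric.tendsto_nhds.1 al_lim) (ε / 2) (by positivity)
  filter_upwards [h1, h2, h3, h4, eventually_ge_atTop 6] with n h1 h2 h3 h4 hn S hS
  rw [Real.dist_eq, abs_lt] at h1 h2 h3 h4
  obtain ⟨e, f, he, hf, hd⟩ := exists_disj hn
  have h5 := dev_le hn S (fun e he => mem_K.2 (hS e he)) he hf hd
  have h6 := II_le hn he hf hd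
  have h7 := le_II hn he hf hd
  have h8 : |2 * n * ex (fun G => I e G * I f G) - 2 * al n + 1| ≤ 4 * ε := by
    rw [abs_le]
    constructor
    · linarith only [h3.1, h7, h4.2, hε]
    · linarith only [h2.2, h6, h4.1, hε]
  have h9 : (n : ℝ) ^ 3 * (q n + |2 * n * ex (fun G => I e G * I f G) - 2 * al n + 1| / 8) ≤
      ε * (n : ℝ) ^ 3 := by
    rw [mul_comm ε]
    refine mul_le_mul_of_nonneg_left ?_ (by positivity)
    linarith only [h1.2, h8]
  refine le_trans (le_of_eq ?_) (h5.trans h9)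
  unfold ex
  refine Finset.sum_congr rfl fun G _ => ?_
  rw [card_survivors]

theorem relative (ε : ℝ) (hε : 0 < ε) : ∀ᶠ n : ℕ in atTop,
    ∀ (S : Finset (Sym2 (Fin n))) (D : ℕ), (∀ e ∈ S, ¬ e.IsDiag) → S.Nonempty →
      (∀ v, (S.filter fun e => v ∈ e).card ≤ D) → 8 * D * √n ≤ ε * S.card →
      ∑ G, (finalGraph n G).toReal *
        (((S.filter fun e => e ∈ G.edgeSet).card : ℝ) / (S.card / √(2 * n)) - 1) ^ 2 ≤ ε := by
  have h2 := (Metric.tendsto_nhds.1 up_lim) (ε / 8) (by positivity)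
  have h3 := (Metric.tendsto_nhds.1 lo_lim) (ε / 8) (by positivity)
  have h4 := (Metric.tendsto_nhds.1 al_lim) (min (ε / 8) (1 / 8)) (by positivity)
  filter_upwards [h2, h3, h4, eventually_ge_atTop 6] with n h2 h3 h4 hn S D hS hS0 hD hSD
  rw [Real.dist_eq] at h4
  have h4a := h4.trans_le (min_le_left _ _)
  have h4b := h4.trans_le (min_le_right _ _)
  rw [Real.dist_eq, abs_lt] at h2 h3
  rw [abs_lt] at h4a h4b
  obtain ⟨e, f, he, hf, hd⟩ := exists_disj hn
  have h5 := rel_le hn S (fun e he => mem_K.2 (hS e he)) hS0 D hD he hf hd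
  have h6 := II_le hn he hf hd
  have h7 := le_II hn he hf hd
  have h8 : |2 * n * ex (fun G => I e G * I f G) - 2 * al n + 1| ≤ 3 * ε / 8 := by
    rw [abs_le]
    constructor
    · linarith only [h3.1, h7, h4a.2]
    · linarith only [h2.2, h6, h4a.1]
  have hs0 : (0 : ℝ) < S.card := by exact_mod_cast hS0.card_pos
  have h9 : 2 * D * √(2 * n) / S.card * al n ≤ 5 * ε / 8 := by
    have h10 : √(2 * (n : ℝ)) ≤ 3 / 2 * √n := by
      rw [Real.sqrt_mul (by norm_num) (n : ℝ)]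
      refine mul_le_mul_of_nonneg_right ?_ (Real.sqrt_nonneg _)
      rw [Real.sqrt_le_left (by norm_num)]
      norm_num
    have h11 : 2 * D * √(2 * n) / S.card ≤ 3 * ε / 8 := by
      rw [div_le_iff₀ hs0]
      have h12 := mul_le_mul_of_nonneg_left h10 (by positivity : (0 : ℝ) ≤ 2 * D)
      linarith only [h12, hSD]
    have h13 : 0 ≤ 2 * D * √(2 * (n : ℝ)) / S.card := by positivity
    have h14 : 2 * D * √(2 * n) / S.card * al n ≤ 2 * D * √(2 * n) / S.card * (9 / 8) :=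
      mul_le_mul_of_nonneg_left (by linarith only [h4b.2]) h13
    linarith only [h11, h14, hε]
  refine le_trans (le_of_eq ?_) (h5.trans (by linarith only [h8, h9]))
  unfold ex
  refine Finset.sum_congr rfl fun G _ => ?_
  rw [card_survivors]

theorem mean_degree (ε : ℝ) (hε : 0 < ε) : ∀ᶠ n : ℕ in atTop, ∀ v : Fin n,
    |(∑ G, (finalGraph n G).toReal * (G.degree v : ℝ)) / √(n / 2) - 1| ≤ ε := by
  have hl : Tendsto (fun n : ℕ => al n * (((n : ℝ) - 1) / n)) atTop (nhds 1) := by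
    have h := al_lim.mul (((ratio 1).inv₀ one_ne_zero))
    rw [inv_one, mul_one] at h
    refine h.congr fun n => ?_
    rw [inv_div]
  have h := (Metric.tendsto_nhds.1 hl) ε hε
  filter_upwards [h, eventually_ge_atTop 6] with n h1 hn v
  rw [Real.dist_eq] at h1
  have h5 : (6 : ℝ) ≤ n := by exact_mod_cast hn
  have h0 : (0 : ℝ) < n := by linarith only [h5]
  have h2 : ∑ G : SimpleGraph (Fin n), (finalGraph n G).toReal * (G.degree v : ℝ) =
      ((n : ℝ) - 1) * q n := by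
    have h3 : ∀ G : SimpleGraph (Fin n), (G.degree v : ℝ) =
        ∑ u ∈ Finset.univ.erase v, I s(v, u) G := by
      intro G
      rw [← SimpleGraph.card_neighborFinset_eq_degree]
      have : G.neighborFinset v = (Finset.univ.erase v).filter fun u => G.Adj v u := by
        ext u
        rw [SimpleGraph.mem_neighborFinset, Finset.mem_filter, Finset.mem_erase]
        exact ⟨fun h => ⟨⟨h.ne', Finset.mem_univ _⟩, h⟩, fun h => h.2⟩
      rw [this, Finset.card_filter, Nat.cast_sum]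
      refine Finset.sum_congr rfl fun u _ => ?_
      rw [I_mk]
      split_ifs
      · exact Nat.cast_one
      · exact Nat.cast_zero
    have h4 : ∑ G : SimpleGraph (Fin n), (finalGraph n G).toReal * (G.degree v : ℝ) =
        ex fun G => ∑ u ∈ Finset.univ.erase v, I s(v, u) G := by
      unfold ex
      exact Finset.sum_congr rfl fun G _ => by rw [h3 G]
    rw [h4, ex_sum, Finset.sum_congr rfl fun u hu => ex_I hn (e := s(v, u)) (by
      rw [mem_K, Sym2.mk_isDiag_iff]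
      exact (Finset.mem_erase.1 hu).1.symm), Finset.sum_const, nsmul_eq_mul,
      Finset.card_erase_of_mem (Finset.mem_univ v), Finset.card_univ, Fintype.card_fin,
      Nat.cast_sub (by omega), Nat.cast_one]
  rw [h2]
  have h6 : ((n : ℝ) - 1) * q n / √(n / 2) = al n * (((n : ℝ) - 1) / n) := by
    unfold al
    have h7 : √(2 * (n : ℝ)) * √((n : ℝ) / 2) = n := by
      rw [← Real.sqrt_mul (by positivity)]
      have : 2 * (n : ℝ) * (n / 2) = n ^ 2 := by ring
      rw [this, Real.sqrt_sq h0.le]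
    have h8 : 0 < √((n : ℝ) / 2) := Real.sqrt_pos.2 (by positivity)
    rw [div_eq_iff h8.ne']
    have h9 : √(2 * (n : ℝ)) * q n * (((n : ℝ) - 1) / n) * √((n : ℝ) / 2) =
        (√(2 * (n : ℝ)) * √((n : ℝ) / 2)) * q n * (((n : ℝ) - 1) / n) := by ring
    rw [h9, h7]
    field_simp
  rw [h6]
  exact h1.le

end Vale.Agent.P046.H561
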