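import Vale.Agent.P046.Defs

/-!
The law of the final graph of random triangle removal is invariant under relabelling the vertices.
-/

set_option autoImplicit false

open scoped Classical
open Finset

namespace Vale.Agent.P046.H561

variable {n : ℕ}

/-- relabelling the vertices of a graph -/
noncomputable def rl (σ : Equiv.Perm (Fin n)) : SimpleGraph (Fin n) ≃ SimpleGraph (Fin n) :=
  σ.simpleGraph

lemma rl_adj (σ : Equiv.Perm (Fin n)) (G : SimpleGraph (Fin n)) (u v : Fin n) :
    (rl σ G).Adj u v ↔ G.Adj (σ.symm u) (σ.symm v) := Iff.rfl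

/-- relabelling a set of vertices -/
def rs (σ : Equiv.Perm (Fin n)) : Finset (Fin n) ≃ Finset (Fin n) := σ.finsetCongr

lemma mem_rs (σ : Equiv.Perm (Fin n)) (t : Finset (Fin n)) (u : Fin n) :
    u ∈ rs σ t ↔ σ.symm u ∈ t := by
  unfold rs
  rw [Equiv.finsetCongr_apply]
  exact Finset.mem_map_equiv

lemma rs_mem_triangles (σ : Equiv.Perm (Fin n)) (G : SimpleGraph (Fin n)) (t : Finset (Fin n)) :
    rs σ t ∈ triangles (rl σ G) ↔ t ∈ triangles G := by
  unfold triangles
  rw [SimpleGraph.mem_cliqueFinset_iff, SimpleGraph.mem_cliqueFinset_iff,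
    SimpleGraph.isNClique_iff, SimpleGraph.isNClique_iff]
  have hc : (rs σ t).card = t.card := by
    unfold rs
    rw [Equiv.finsetCongr_apply, Finset.card_map]
  rw [hc]
  refine and_congr_left fun _ => ⟨fun h a ha b hb hab => ?_, fun h a ha b hb hab => ?_⟩
  · have h1 := h (x := σ a) (by rw [Finset.mem_coe, mem_rs]; simpa using ha) (y := σ b)
      (by rw [Finset.mem_coe, mem_rs]; simpa using hb) (fun h => hab (σ.injective h))
    rw [rl_adj] at h1
    simpa using h1
  · rw [Finset.mem_coe, mem_rs] at ha hb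
    rw [rl_adj]
    exact h ha hb fun h => hab (σ.symm.injective h)

lemma rl_removeTriangle (σ : Equiv.Perm (Fin n)) (G : SimpleGraph (Fin n))
    (t : Finset (Fin n)) :
    rl σ (removeTriangle G t) = removeTriangle (rl σ G) (rs σ t) := by
  ext u v
  unfold removeTriangle
  rw [rl_adj, SimpleGraph.deleteEdges_adj, SimpleGraph.deleteEdges_adj, rl_adj, Finset.mem_coe,
    Finset.mem_coe, Finset.mk_mem_sym2_iff, Finset.mk_mem_sym2_iff, mem_rs, mem_rs]

lemma map_equiv_apply {α β : Type} (e : α ≃ β) (p : PMF α) (b : β) :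
    (p.map e) b = p (e.symm b) := by
  rw [PMF.map_apply, tsum_eq_single (e.symm b)]
  · rw [if_pos (e.apply_symm_apply b).symm]
  · intro a ha
    rw [if_neg]
    rintro rfl
    exact ha (e.symm_apply_apply a).symm

lemma uniform_map {α β : Type} (e : α ≃ β) (S : Finset α) (h : S.Nonempty) (T : Finset β)
    (h' : T.Nonempty) (hT : ∀ a, e a ∈ T ↔ a ∈ S) :
    (PMF.uniformOfFinset S h).map e = PMF.uniformOfFinset T h' := by
  have hc : T.card = S.card := by
    have : T = S.map e.toEmbedding := by
      ext b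
      rw [Finset.mem_map_equiv, ← hT, Equiv.apply_symm_apply]
    rw [this, Finset.card_map]
  ext b
  rw [map_equiv_apply, PMF.uniformOfFinset_apply, PMF.uniformOfFinset_apply, hc]
  have : e.symm b ∈ S ↔ b ∈ T := by rw [← hT, Equiv.apply_symm_apply]
  simp only [this]

lemma rl_step (σ : Equiv.Perm (Fin n)) (G : SimpleGraph (Fin n)) :
    (step G).map (rl σ) = step (rl σ G) := by
  unfold step
  by_cases h : (triangles G).Nonempty
  · have h' : (triangles (rl σ G)).Nonempty := by
      obtain ⟨t, ht⟩ := h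
      exact ⟨rs σ t, (rs_mem_triangles σ G t).2 ht⟩
    rw [dif_pos h, dif_pos h', PMF.map_comp,
      ← uniform_map (rs σ) (triangles G) h (triangles (rl σ G)) h' (rs_mem_triangles σ G),
      PMF.map_comp]
    congr 1
    funext t
    exact rl_removeTriangle σ G t
  · have h' : ¬ (triangles (rl σ G)).Nonempty := by
      rintro ⟨t, ht⟩
      refine h ⟨(rs σ).symm t, ?_⟩
      rw [← rs_mem_triangles σ G, Equiv.apply_symm_apply]
      exact ht
    rw [dif_neg h, dif_neg h', PMF.pure_map]

lemma rl_run (σ : Equiv.Perm (Fin n)) (k : ℕ) (G : SimpleGraph (Fin n)) :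
    (run k G).map (rl σ) = run k (rl σ G) := by
  induction k generalizing G with
  | zero =>
    unfold run
    rw [PMF.pure_map]
  | succ k ih =>
    change ((step G).bind (run k)).map (rl σ) = (step (rl σ G)).bind (run k)
    rw [PMF.map_bind, ← rl_step, PMF.bind_map]
    congr 1
    funext H
    exact ih H

lemma rl_top (σ : Equiv.Perm (Fin n)) : rl σ ⊤ = ⊤ := by
  ext u v
  rw [rl_adj, SimpleGraph.top_adj, SimpleGraph.top_adj]
  exact σ.symm.injective.ne_iff

theorem finalGraph_rl (σ : Equiv.Perm (Fin n)) (G : SimpleGraph (Fin n)) :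
    finalGraph n (rl σ G) = finalGraph n G := by
  have h : (finalGraph n).map (rl σ) = finalGraph n := by
    unfold finalGraph
    rw [rl_run, rl_top]
  have h2 := congrArg (fun p : PMF (SimpleGraph (Fin n)) => p (rl σ G)) h
  rw [map_equiv_apply, Equiv.symm_apply_apply] at h2
  exact h2.symm

/-- expectation under the law of the final graph -/
noncomputable def ex (f : SimpleGraph (Fin n) → ℝ) : ℝ :=
  ∑ G, (finalGraph n G).toReal * f G

theorem ex_rl (σ : Equiv.Perm (Fin n)) (f : SimpleGraph (Fin n) → ℝ) :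
    ex (fun G => f (rl σ G)) = ex f := by
  unfold ex
  rw [← Equiv.sum_comp (rl σ) (fun G => (finalGraph n G).toReal * f G)]
  refine Finset.sum_congr rfl fun G _ => ?_
  rw [finalGraph_rl]

end Vale.Agent.P046.H561
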